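import Vale.Agent.P181.DG9.H924.E.Heavy3
import Vale.Agent.P181.DG9.H924.E.Heavy4
import Vale.Agent.P181.DG9.H924.E.Light
import Vale.Agent.P181.PL10.Lin
import Vale.Agent.P181.H536.HW

set_option autoImplicit false

/-!
# P181, DG, version E: the scan over `R` and the theorem near the diagonal
-/

namespace Vale.Agent.P181.DG.E924

open Vale.Agent.P181.T4 (ex low)
open Vale.Agent.P181.H280 (plethMult)
open Vale.Agent.P181.PL
open Vale.Agent.P181.SZ (LBC LBR)

/-- The scan over `R`. -/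
theorem scanE (hA : AsmR) (hL : LBL) (hI : LBI) (hC : LBC) (hR' : LBR) {a b n X : ℕ}
    {lam : Fin n → ℕ} (h : HyE a b n X lam) :
    plethMult a b n lam ≤ plethMult b a n lam := by
  have hy := h
  obtain ⟨hanti, hsum, hpos, hna, hab, hab5, hdiag, haX, hX, hD2, h1, h2a, hw⟩ := h
  obtain ⟨hX1, hX12⟩ := PL10.X_ge hX
  have hX0 : 0 < X := by omega
  have ha5 : 5 ≤ a := by
    have e1 : X ≤ X ^ 20000 := Nat.le_self_pow (by norm_num) X
    omega
  have hb : b ≤ a ^ 2 := by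
    have e1 : 5 * a ≤ a * a := Nat.mul_le_mul_right _ ha5
    rw [sq]
    omega
  obtain ⟨R, hR3, hRX, hs⟩ := PL10.exists_R lam hsum (by omega) hb hX
  rcases le_or_gt (X ^ 2550 * dn lam R) (ex lam 2) with hl | hl
  · exact lightE hA hC hR' hy hR3 hRX hl
  have hRn : R < n := by
    by_contra h
    rw [dn_ge lam (by omega), mul_zero] at hl
    omega
  have hR : HyER a b n X R lam := by
    refine ⟨hy, hR3, hRn, hRX, hs, ?_⟩
    have h3 := dn_le hanti 2 (R - 2)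
    rw [show 2 + (R - 2) = R by omega] at h3
    calc dn lam 2 ≤ dn lam R + (R - 2) * ex lam 2 := h3
      _ ≤ 1 * dn lam R + X ^ 14 * (X ^ 2550 * dn lam R) := by
          rw [one_mul]
          exact Nat.add_le_add_left (Nat.mul_le_mul (by omega) hl.le) _
      _ = (1 + X ^ 2564) * dn lam R := by
          rw [show (2564 : ℕ) = 14 + 2550 by norm_num, pow_add]
          ring
      _ ≤ X ^ 2600 * dn lam R := by
          apply Nat.mul_le_mul_right
          calc 1 + X ^ 2564 ≤ X ^ 2564 + X ^ 2564 :=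
                Nat.add_le_add_right (Nat.one_le_pow _ _ hX0) _
            _ = 2 * X ^ 2564 := by ring
            _ ≤ X * X ^ 2564 := Nat.mul_le_mul_right _ (by omega)
            _ = X ^ (2564 + 1) := (pow_succ' _ _).symm
            _ ≤ X ^ 2600 := Nat.pow_le_pow_right hX0 (by norm_num)
  rcases le_or_gt (X ^ 2 * dn lam 2) (dn lam 1) with hd | hd
  · exact heavy3E hL hA hR hd
  · exact heavy4E hI hA hR hd

/-- Few cells below row two. -/
lemma few_two {a b m : ℕ} (lam : Fin (m + 2) → ℕ) (ha : 2 ≤ a) (h : dn lam 2 + a ≤ b + 1) :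
    plethMult a b (m + 2) lam ≤ plethMult b a (m + 2) lam := by
  apply H536.plethMult_le (N := a - 1) (by omega) (by omega)
  have h5 : (∑ i : Fin m, lam i.succ.succ) = dn lam 2 := by
    have e1 : ∑ i, lam i = dn lam 0 := (dn_zero lam).symm
    rw [Fin.sum_univ_succ, Fin.sum_univ_succ, dn_succ, dn_succ, exlt lam (by omega : 0 < m + 2),
      exlt lam (by omega : 1 < m + 2)] at e1
    have e2 : lam 0 = lam ⟨0, by omega⟩ := rfl
    have e3 : lam (Fin.succ 0) = lam ⟨1, by omega⟩ := rfl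
    have e4 : dn lam (0 + 1 + 1) = dn lam 2 := rfl
    omega
  omega

/-- Short second row. -/
lemma sec {a b n : ℕ} (hab : a ≤ b) (lam : Fin n → ℕ) (hanti : Antitone lam)
    (h : ex lam 1 ≤ a) : plethMult a b n lam ≤ plethMult b a n lam := by
  cases n with
  | zero =>
    rw [← H530.pad_stmt a b 0 1 lam, ← H530.pad_stmt b a 0 1 lam]
    exact H54.foulkes_secondRow a b hab _ fun i hi => absurd (Fin.ext (by
      have := i.2
      show (i : ℕ) = 0
      omega)) hi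
  | succ m =>
    refine H54.foulkes_secondRow a b hab lam (fun i hi => ?_)
    have h3 : 1 ≤ (i : ℕ) := by
      rcases Nat.eq_zero_or_pos (i : ℕ) with h0 | h0
      · exact absurd (Fin.ext h0) hi
      · exact h0
    have h4 := exanti hanti h3
    rw [exfin] at h4
    omega

/-- **The theorem near the diagonal, version E.** -/
def DiagE : Prop := ∃ (C : ℝ) (c : ℕ), 0 < C ∧ ∀ a b : ℕ, a ≤ b →
  ∀ (n : ℕ) (lam : Fin n → ℕ),
  (dn lam 1 ≤ b ∨ 2 * (a : ℝ) + a / (1 + Real.log a) ^ 7 ≤ (dn lam 1 : ℝ)) →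
  C * (1 + Real.log a) ^ c * (dn lam 1 : ℝ) ≤ ((b : ℝ) - a) ^ 2 →
  C * (1 + Real.log a) ^ c * (dn lam 1 : ℝ) ≤ (a : ℝ) ^ 2 →
  plethMult a b n lam ≤ plethMult b a n lam

/-- The last step with general exponents. -/
theorem diag_gen (p q m : ℕ) (H : ∀ (a b n X : ℕ) (lam : Fin n → ℕ), Antitone lam →
    ∑ i, lam i = a * b → (∀ i, 0 < lam i) → n ≤ a → a ≤ b → b ≤ 5 * a → X ^ p ≤ a →
    10 ^ 12 * (1 + Real.log a) ^ m ≤ X → dn lam 1 * X ^ q ≤ (b - a) ^ 2 →
    b + 2 ≤ a + dn lam 2 → a < ex lam 1 → (2 * X + 1) * a ≤ X * dn lam 1 →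
    dn lam 1 * X ^ q ≤ a ^ 2 → plethMult a b n lam ≤ plethMult b a n lam)
    (hLin : H467.NT.LinS) :
    ∃ (C : ℝ) (c : ℕ), 0 < C ∧ ∀ a b : ℕ, a ≤ b → ∀ (n : ℕ) (lam : Fin n → ℕ),
      (dn lam 1 ≤ b ∨ 2 * (a : ℝ) + a / (1 + Real.log a) ^ m ≤ (dn lam 1 : ℝ)) →
      C * (1 + Real.log a) ^ c * (dn lam 1 : ℝ) ≤ ((b : ℝ) - a) ^ 2 →
      C * (1 + Real.log a) ^ c * (dn lam 1 : ℝ) ≤ (a : ℝ) ^ 2 →
      plethMult a b n lam ≤ plethMult b a n lam := by
  obtain ⟨K, hK⟩ : ∃ K : ℝ, K = 2 * 10 ^ 12 := ⟨_, rfl⟩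
  have hK0 : 0 < K := by
    rw [hK]
    norm_num
  obtain ⟨A0, hA0⟩ := PL10.ev K hK0 m p
  obtain ⟨C0, c0, hC0, hlin⟩ := hLin
  have hKq : 0 < K ^ q := pow_pos hK0 _
  refine ⟨C0 + K ^ q + ((A0 : ℝ) + 2) ^ 2, c0 + m * q, by positivity, ?_⟩
  intro a b hab n lam hwc hwb hwa
  have hlog : 0 ≤ Real.log a := Real.log_natCast_nonneg a
  have hL1 : (1 : ℝ) ≤ 1 + Real.log a := by linarith
  have hLc : (1 : ℝ) ≤ (1 + Real.log a) ^ c0 := one_le_pow₀ hL1
  have hLq : (1 : ℝ) ≤ (1 + Real.log a) ^ (m * q) := one_le_pow₀ hL1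
  have hdw : (0 : ℝ) ≤ (dn lam 1 : ℝ) := Nat.cast_nonneg _
  rw [pow_add] at hwb hwa
  -- the constant dominates the three constants
  have hc1 : C0 * (1 + Real.log a) ^ c0 ≤
      (C0 + K ^ q + ((A0 : ℝ) + 2) ^ 2) * ((1 + Real.log a) ^ c0 * (1 + Real.log a) ^ (m * q)) := by
    apply mul_le_mul _ (le_mul_of_one_le_right (by positivity) hLq) (by positivity)
      (by positivity)
    have : (0 : ℝ) ≤ ((A0 : ℝ) + 2) ^ 2 := by positivity
    linarith
  have hc2 : K ^ q * (1 + Real.log a) ^ (m * q) ≤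
      (C0 + K ^ q + ((A0 : ℝ) + 2) ^ 2) * ((1 + Real.log a) ^ c0 * (1 + Real.log a) ^ (m * q)) := by
    apply mul_le_mul _ (le_mul_of_one_le_left (by positivity) hLc) (by positivity)
      (by positivity)
    have : (0 : ℝ) ≤ ((A0 : ℝ) + 2) ^ 2 := by positivity
    linarith
  have hc3 : ((A0 : ℝ) + 2) ^ 2 ≤
      (C0 + K ^ q + ((A0 : ℝ) + 2) ^ 2) * ((1 + Real.log a) ^ c0 * (1 + Real.log a) ^ (m * q)) := by
    have h1 : (1 : ℝ) ≤ (1 + Real.log a) ^ c0 * (1 + Real.log a) ^ (m * q) :=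
      one_le_mul_of_one_le_of_one_le hLc hLq
    refine le_trans ?_ (le_mul_of_one_le_right (by positivity) h1)
    linarith
  rcases lt_or_ge a (A0 + 2) with ha | ha
  · -- small `a`: one row
    have h0 : dn lam 1 = 0 := by
      by_contra hne
      have h1 : (1 : ℝ) ≤ dn lam 1 := by exact_mod_cast Nat.one_le_iff_ne_zero.2 hne
      have h2 : (a : ℝ) ^ 2 < ((A0 : ℝ) + 2) ^ 2 := by
        have : (a : ℝ) < (A0 : ℝ) + 2 := by exact_mod_cast ha
        exact pow_lt_pow_left₀ this (Nat.cast_nonneg _) (by norm_num)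
      have h5 : (0 : ℝ) ≤ ((A0 : ℝ) + 2) ^ 2 := by positivity
      have h7 := le_mul_of_one_le_right (h5.trans hc3) h1
      linarith
    by_cases hz : plethMult a b n lam = 0
    · rw [hz]
      exact Nat.zero_le _
    obtain ⟨hanti, _, _⟩ := H530.zero_stmt a b n lam hz
    apply sec hab lam hanti
    have h1 := ex_le_dn lam 1
    omega
  refine PL10.trimQ lam fun k mu hanti hsum hpos hka hdn => ?_
  rcases le_or_gt (5 * a) b with hb5 | hb5
  · apply hlin a b hb5 k mu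
    rw [hdn 1]
    exact (mul_le_mul_of_nonneg_right hc1 hdw).trans hwa
  rcases le_or_gt (ex mu 1) a with h1 | h1
  · exact sec hab mu hanti h1
  have hk : 2 ≤ k := by
    by_contra hcon
    rw [exge mu (by omega)] at h1
    omega
  obtain ⟨j, rfl⟩ : ∃ j, k = j + 2 := ⟨k - 2, by omega⟩
  rcases Nat.lt_or_ge (b + 1) (dn mu 2 + a) with h2 | h2
  swap
  · exact few_two mu (by omega) h2
  obtain ⟨X, hX1, hX2⟩ := PL10.exists_X a m
  rw [← hK] at hX2
  have hX0 : (0 : ℝ) ≤ X := Nat.cast_nonneg X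
  have hwq : ∀ A : ℝ, (C0 + K ^ q + ((A0 : ℝ) + 2) ^ 2) *
      ((1 + Real.log a) ^ c0 * (1 + Real.log a) ^ (m * q)) * (dn lam 1 : ℝ) ≤ A →
      (dn lam 1 : ℝ) * (X : ℝ) ^ q ≤ A := fun A hA =>
    PL10.num_q q m hdw hX0 hX2 ((mul_le_mul_of_nonneg_right hc2 hdw).trans hA)
  have hw2 : 2 * (a : ℝ) + a / (1 + Real.log a) ^ m ≤ (dn lam 1 : ℝ) := by
    rcases hwc with h | h
    · exfalso
      have e1 := dn_succ mu 1
      rw [hdn 1] at e1
      have e4 : dn mu (1 + 1) = dn mu 2 := rfl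
      omega
    · exact h
  refine H a b (j + 2) X mu hanti hsum hpos hka hab hb5.le ?_ hX1 ?_ (by omega) h1 ?_ ?_
  · have h1 : (X : ℝ) ^ p ≤ (K * (1 + Real.log a) ^ m) ^ p :=
      pow_le_pow_left₀ (Nat.cast_nonneg _) hX2 _
    have h2 := h1.trans (hA0 a (by omega))
    rw [← Nat.cast_pow] at h2
    exact Nat.cast_le.1 h2
  · have h3 := hwq _ hwb
    rw [hdn 1]
    have h4 : ((b : ℝ) - a) = ((b - a : ℕ) : ℝ) := by
      rw [Nat.cast_sub hab]
    rw [h4, ← Nat.cast_pow, ← Nat.cast_pow, ← Nat.cast_mul] at h3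
    exact Nat.cast_le.1 h3
  · rw [hdn 1]
    have hLm : (1 : ℝ) ≤ (1 + Real.log a) ^ m := one_le_pow₀ hL1
    have hXL : (1 + Real.log a) ^ m ≤ (X : ℝ) := by
      refine le_trans ?_ hX1
      exact le_mul_of_one_le_left (by positivity) (by norm_num)
    have hXp : (0 : ℝ) < X := lt_of_lt_of_le (by linarith) hXL
    have h3 : (a : ℝ) / X ≤ a / (1 + Real.log a) ^ m :=
      div_le_div_of_nonneg_left (Nat.cast_nonneg _) (by linarith) hXL
    have h4 : ((((2 * X + 1) * a : ℕ)) : ℝ) ≤ ((X * dn lam 1 : ℕ) : ℝ) := by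
      push_cast
      calc (2 * (X : ℝ) + 1) * a = X * (2 * (a : ℝ) + a / X) := by
            field_simp
        _ ≤ X * (dn lam 1 : ℝ) := by
            apply mul_le_mul_of_nonneg_left _ hX0
            linarith
    exact Nat.cast_le.1 h4
  · have h3 := hwq _ hwa
    rw [hdn 1]
    rw [← Nat.cast_pow, ← Nat.cast_pow, ← Nat.cast_mul] at h3
    exact Nat.cast_le.1 h3

/-- **The theorem near the diagonal, version E**, from the assembly, the four lower bounds and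
the linear theorem. -/
theorem diagE_of (hA : AsmR) (hL : LBL) (hI : LBI) (hC : LBC) (hR' : LBR)
    (hLin : H467.NT.LinS) : DiagE := by
  refine diag_gen 20000 13000 7 (fun a b n X lam h1 h2 h3 h4 h5 h6 h7 h8 h9 h10 h11 h12 h13 =>
    scanE hA hL hI hC hR' ⟨h1, h2, h3, h4, h5, h6, ?_, h7, h8, ?_, h11, h12, h13⟩) hLin
  · obtain ⟨_, hX12⟩ := PL10.X_ge h8
    exact (Nat.le_mul_of_pos_right _ (Nat.pow_pos (by omega))).trans h9
  · obtain ⟨_, hX12⟩ := PL10.X_ge h8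
    calc dn lam 1 * X ^ 6000 ≤ dn lam 1 * X ^ 13000 :=
          Nat.mul_le_mul_left _ (Nat.pow_le_pow_right (by omega) (by norm_num))
      _ ≤ (b - a) ^ 2 := h9
      _ ≤ dn lam 2 ^ 2 := Nat.pow_le_pow_left (by omega) 2

/-- All partitions with `w ≤ a ^ 2 / polylog`, for `b ≥ 2 a + a / (1 + log a) ^ 7`. -/
theorem lin2_of (h : DiagE) : ∃ (C : ℝ) (c : ℕ), 0 < C ∧ ∀ a b : ℕ,
    2 * (a : ℝ) + a / (1 + Real.log a) ^ 7 ≤ b → ∀ (n : ℕ) (lam : Fin n → ℕ),
    C * (1 + Real.log a) ^ c * (dn lam 1 : ℝ) ≤ (a : ℝ) ^ 2 →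
    plethMult a b n lam ≤ plethMult b a n lam := by
  obtain ⟨C, c, hC, h⟩ := h
  refine ⟨C, c, hC, fun a b hab n lam hw => ?_⟩
  have hlog : 0 ≤ Real.log a := Real.log_natCast_nonneg a
  have ha : (0 : ℝ) ≤ a := Nat.cast_nonneg a
  have h1 : (0 : ℝ) ≤ a / (1 + Real.log a) ^ 7 := by positivity
  have h2 : 2 * (a : ℝ) ≤ b := by linarith
  have h3 : 2 * a ≤ b := by exact_mod_cast h2
  apply h a b (by omega) n lam _ _ hw
  · rcases le_or_gt (dn lam 1) b with h4 | h4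
    · exact Or.inl h4
    · right
      have h5 : (b : ℝ) ≤ dn lam 1 := by exact_mod_cast h4.le
      linarith
  · refine hw.trans ?_
    apply pow_le_pow_left₀ ha
    linarith

end Vale.Agent.P181.DG.E924
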