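import Vale.Agent.P181.PL508.Common
import Vale.Agent.P181.DG.Defs

set_option autoImplicit false

/-!
# P181, DG, version E: `2 a + a / X ≤ w` instead of `3 a ≤ w`
-/

namespace Vale.Agent.P181.DG.E924

open Vale.Agent.P181.T4 (ex low)
open Vale.Agent.P181.H280 (plethMult)
open Vale.Agent.P181.H463 (gt)
open Vale.Agent.P181.PL Vale.Agent.P181.PL508

/-- The hypotheses near the diagonal: `DG.HyD` with `(2 X + 1) a ≤ X w` instead of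
`3 a ≤ w`. -/
def HyE (a b n X : ℕ) (lam : Fin n → ℕ) : Prop :=
  Antitone lam ∧ ∑ i, lam i = a * b ∧ (∀ i, 0 < lam i) ∧ n ≤ a ∧ a ≤ b ∧ b ≤ 5 * a ∧
    dn lam 1 ≤ (b - a) ^ 2 ∧ X ^ 20000 ≤ a ∧ 10 ^ 12 * (1 + Real.log a) ^ 7 ≤ X ∧
    dn lam 1 * X ^ 6000 ≤ dn lam 2 ^ 2 ∧ a < ex lam 1 ∧ (2 * X + 1) * a ≤ X * dn lam 1 ∧
    dn lam 1 * X ^ 13000 ≤ a ^ 2

/-- `HyE`, and the tail behind row `R` is spread and heavy. -/
def HyER (a b n X R : ℕ) (lam : Fin n → ℕ) : Prop :=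
  HyE a b n X lam ∧ 3 ≤ R ∧ R < n ∧ R ≤ X ^ 14 ∧ X ^ 13 * ex lam R ≤ dn lam R ∧
    dn lam 2 ≤ X ^ 2600 * dn lam R

/-- the numbers `Z`, `K` -/
lemma commonE {a b n X : ℕ} {lam : Fin n → ℕ} (h : HyE a b n X lam) :
    1 ≤ a ∧ 10 ^ 12 ≤ X ∧ 10 ^ 12 * Real.log a ≤ X ∧ 10 ^ 12 * (1 + Real.log a) ^ 6 ≤ X ∧
    dn lam 1 + 1 ≤ a ^ 2 ∧ dn lam 2 ≤ dn lam 1 ∧ 2 * a ≤ dn lam 1 ∧
    ∃ Z K, Z ^ 2 ≤ dn lam 1 ∧ dn lam 1 < (Z + 1) ^ 2 ∧ X ^ 9999 ≤ Z ∧ Z * X ^ 2 < a ∧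
      Z * X ^ 6500 ≤ a ∧ Z * X ^ 3000 ≤ dn lam 2 ∧ a + Z ≤ b ∧
      1 ≤ K ∧ 16 * K + 16 ≤ X ∧ 1000 * K ≤ X ∧ 4 * dn lam 1 ≤ X ^ K ∧
      100 * K * ((Z + 1) * X) ≤ a := by
  obtain ⟨_, hsum, _, hna, hab, hab5, hdiag, hXa, hlog, hbD, h1, h2a, hw⟩ := h
  have ha : 1 ≤ a := by
    by_contra hcon
    have : a = 0 := by omega
    subst this
    rw [zero_mul] at hsum
    have h2 := ex_le_dn lam 1
    have h3 := dn_anti lam (Nat.zero_le 1)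
    rw [dn_zero, hsum] at h3
    omega
  obtain ⟨hX, hl1, hl6, K, hK1, hK2, hK3⟩ := X_facts ha hlog
  have hdn1 : dn lam 1 = ex lam 1 + dn lam 2 := dn_succ lam 1
  obtain ⟨w, hwdef⟩ : ∃ w, w = dn lam 1 := ⟨_, rfl⟩
  rw [← hwdef] at hw hdiag h2a hdn1 hbD ⊢
  have hX1 : 1 ≤ X := le_trans (by norm_num) hX
  have h2w : 2 * a ≤ w := by
    apply Nat.le_of_mul_le_mul_left _ hX1
    calc X * (2 * a) ≤ (2 * X + 1) * a := by
          have e : (2 * X + 1) * a = X * (2 * a) + a := by ring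
          omega
      _ ≤ X * w := h2a
  have hXX : X ≤ X ^ 13000 := Nat.le_self_pow (by norm_num) X
  have hwa : w + 1 ≤ a ^ 2 := by
    have : w * 2 ≤ w * X ^ 13000 := Nat.mul_le_mul_left _ (by omega)
    omega
  obtain ⟨Z, hZ⟩ : ∃ Z, Z = Nat.sqrt w := ⟨_, rfl⟩
  have hZ1 : Z ^ 2 ≤ w := by
    rw [hZ]
    exact Nat.sqrt_le' w
  have hZ2 : w < (Z + 1) ^ 2 := by
    rw [hZ]
    exact Nat.lt_succ_sqrt' w
  have hZa : Z * X ^ 6500 ≤ a := by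
    have h2 : (Z * X ^ 6500) ^ 2 ≤ a ^ 2 := by
      calc (Z * X ^ 6500) ^ 2 = Z ^ 2 * X ^ 13000 := by ring
        _ ≤ w * X ^ 13000 := Nat.mul_le_mul_right _ hZ1
        _ ≤ a ^ 2 := hw
    exact (Nat.pow_le_pow_iff_left (by norm_num)).1 h2
  have hZX : X ^ 9999 ≤ Z := by
    by_contra hcon
    have h2 : Z + 1 ≤ X ^ 9999 := by omega
    have h3 : (Z + 1) ^ 2 ≤ (X ^ 9999) ^ 2 := Nat.pow_le_pow_left h2 2
    have h5 : (X ^ 9999) ^ 2 ≤ X ^ 20000 := by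
      rw [← pow_mul]
      exact Nat.pow_le_pow_right hX1 (by norm_num)
    omega
  have hZpos : 1 ≤ Z := (Nat.one_le_pow _ _ hX1).trans hZX
  have hZb : Z ≤ b - a := (Nat.pow_le_pow_iff_left (by norm_num)).1 (hZ1.trans hdiag)
  have h7 : 2 * (Z * X ^ 2) ≤ a := by
    refine le_trans ?_ hZa
    calc 2 * (Z * X ^ 2) = Z * (2 * X ^ 2) := by ring
      _ ≤ Z * (X * X ^ 2) := Nat.mul_le_mul_left _ (Nat.mul_le_mul_right _ (by omega))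
      _ = Z * X ^ 3 := by ring
      _ ≤ Z * X ^ 6500 := Nat.mul_le_mul_left _ (Nat.pow_le_pow_right hX1 (by norm_num))
  have h8 : 1 ≤ Z * X ^ 2 := Nat.mul_pos hZpos (Nat.one_le_pow _ _ hX1)
  refine ⟨ha, hX, hl1, hl6, hwa, by omega, h2w, Z, K, hZ1, hZ2, hZX, by omega, hZa, ?_,
    by omega, hK1, by omega, hK2, ?_, ?_⟩
  · have h2 : (Z * X ^ 3000) ^ 2 ≤ dn lam 2 ^ 2 := by
      calc (Z * X ^ 3000) ^ 2 = Z ^ 2 * X ^ 6000 := by ring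
        _ ≤ w * X ^ 6000 := Nat.mul_le_mul_right _ hZ1
        _ ≤ dn lam 2 ^ 2 := hbD
    exact (Nat.pow_le_pow_iff_left (by norm_num)).1 h2
  · have h2 : a ^ 2 ≤ a ^ 3 := Nat.pow_le_pow_right ha (by norm_num)
    have h3 : 2 ^ K ≤ X ^ K := Nat.pow_le_pow_left (by omega) K
    omega
  · have h4 : 2 * X ^ 2 ≤ a := by
      calc 2 * X ^ 2 ≤ X * X ^ 2 := Nat.mul_le_mul_right _ (by omega)
        _ = X ^ 3 := by ring
        _ ≤ X ^ 20000 := Nat.pow_le_pow_right hX1 (by norm_num)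
        _ ≤ a := hXa
    have h5 : 10 * (100 * K * ((Z + 1) * X)) ≤ X * ((Z + 1) * X) := by
      calc 10 * (100 * K * ((Z + 1) * X)) = 1000 * K * ((Z + 1) * X) := by ring
        _ ≤ X * ((Z + 1) * X) := Nat.mul_le_mul_right _ hK2
    have h6 : X * ((Z + 1) * X) = Z * X ^ 2 + X ^ 2 := by ring
    omega

/-- the extra hypothesis of `AsmR` -/
lemma zx2 {a X Z : ℕ} (hX : 10 ^ 12 ≤ X) (hZ : 1 ≤ Z) (h : Z * X ^ 6500 ≤ a) :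
    Z * X ^ 2 + 2 ≤ a := by
  have hX1 : 1 ≤ X := le_trans (by norm_num) hX
  have h2 : 2 * (Z * X ^ 2) ≤ a := by
    refine le_trans ?_ h
    calc 2 * (Z * X ^ 2) = Z * (2 * X ^ 2) := by ring
      _ ≤ Z * (X * X ^ 2) := Nat.mul_le_mul_left _ (Nat.mul_le_mul_right _ (by omega))
      _ = Z * X ^ 3 := by ring
      _ ≤ Z * X ^ 6500 := Nat.mul_le_mul_left _ (Nat.pow_le_pow_right hX1 (by norm_num))
  have h3 : 1 * 2 ≤ Z * X ^ 2 := by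
    apply Nat.mul_le_mul hZ
    have := Nat.pow_le_pow_right hX1 (show 1 ≤ 2 by norm_num)
    rw [pow_one] at this
    omega
  omega

end Vale.Agent.P181.DG.E924
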