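import Vale.Agent.P181.DG9.H924.E.Common

set_option autoImplicit false

/-!
# P181, DG, version E: two long rows (the proof of `DG9.heavy3D_of`)
-/

namespace Vale.Agent.P181.DG.E924

open Vale.Agent.P181.T4 (ex low)
open Vale.Agent.P181.H280 (plethMult)
open Vale.Agent.P181.H463 (gt)
open Vale.Agent.P181.PL Vale.Agent.P181.PL508 Vale.Agent.P181.DG

/-- Two long rows. -/
theorem heavy3E (hL : LBL) (hA : AsmR) {a b n X R : ℕ} {lam : Fin n → ℕ}
    (hy : HyER a b n X R lam) (hs : X ^ 2 * dn lam 2 ≤ dn lam 1) :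
    plethMult a b n lam ≤ plethMult b a n lam := by
  obtain ⟨h, hR3, hRn, hRX, hRs, hDR⟩ := hy
  obtain ⟨ha, hX, hl1, hl6, hwa, hDD, h3a, Z, K, hZ1, hZ2, hZX, hZa, hZa6, hZD, hab, hK1, hKX, _,
    hwX, hKa⟩ := commonE h
  obtain ⟨hlam, hsum, hpos, hna, _, _, _, hXa, hlog, _, h1, _, _⟩ := h
  obtain ⟨w, hwdef⟩ : ∃ w, w = dn lam 1 := ⟨_, rfl⟩
  rw [← hwdef] at hs hwa hDD h3a hZ1 hZ2 hwX
  have hX1 : 1 ≤ X := le_trans (by norm_num) hX
  have hXp : ∀ i j, i ≤ j → X ^ i ≤ X ^ j := fun i j hij => Nat.pow_le_pow_right hX1 hij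
  have hXpos : ∀ i, 1 ≤ X ^ i := fun i => Nat.one_le_pow _ _ hX1
  -- the numbers
  obtain ⟨a0, ha0⟩ : ∃ a0, a0 = Z / X ^ 5 := ⟨_, rfl⟩
  obtain ⟨P, hP⟩ : ∃ P, P = a0 / 1000 := ⟨_, rfl⟩
  obtain ⟨N, hN⟩ : ∃ N, N = 1000 * X ^ 9 * P * 2 := ⟨_, rfl⟩
  have hZpos : 1 ≤ Z := (hXpos 9999).trans hZX
  have ha1 : a0 * X ^ 5 ≤ Z := by
    rw [ha0]
    exact Nat.div_mul_le_self Z (X ^ 5)
  have ha2 : Z < (a0 + 1) * X ^ 5 := by
    rw [ha0]
    have := Nat.lt_div_mul_add (a := Z) (b := X ^ 5) (hXpos 5)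
    rw [add_mul, one_mul]
    exact this
  have ha3 : X ^ 100 ≤ a0 := by
    rw [ha0, Nat.le_div_iff_mul_le (hXpos 5)]
    calc X ^ 100 * X ^ 5 = X ^ 105 := by ring
      _ ≤ X ^ 9999 := hXp _ _ (by norm_num)
      _ ≤ Z := hZX
  have hXX : X ≤ X ^ 100 := by
    calc X = X ^ 1 := (pow_one X).symm
      _ ≤ X ^ 100 := hXp _ _ (by norm_num)
  have ha4 : Z ≤ 2 * (a0 * X ^ 5) := by
    have : 1 * X ^ 5 ≤ a0 * X ^ 5 := Nat.mul_le_mul_right _ (by omega)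
    have e : (a0 + 1) * X ^ 5 = a0 * X ^ 5 + 1 * X ^ 5 := by ring
    omega
  have hP1 : 1000 * P ≤ a0 := by omega
  have hP2 : a0 ≤ 2000 * P := by omega
  have hN1 : N ≤ 2 * (X ^ 9 * a0) := by
    rw [hN]
    calc 1000 * X ^ 9 * P * 2 = 2 * (X ^ 9 * (1000 * P)) := by ring
      _ ≤ 2 * (X ^ 9 * a0) := Nat.mul_le_mul_left _ (Nat.mul_le_mul_left _ hP1)
  have hN2 : X ^ 9 * a0 ≤ N := by
    rw [hN]
    calc X ^ 9 * a0 ≤ X ^ 9 * (2000 * P) := Nat.mul_le_mul_left _ hP2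
      _ = 1000 * X ^ 9 * P * 2 := by ring
  have hN3 : N ≤ 2 * (X ^ 4 * Z) := by
    refine hN1.trans ?_
    calc 2 * (X ^ 9 * a0) = 2 * (X ^ 4 * (a0 * X ^ 5)) := by ring
      _ ≤ 2 * (X ^ 4 * Z) := Nat.mul_le_mul_left _ (Nat.mul_le_mul_left _ ha1)
  have hN4 : X ^ 4 * Z ≤ 2 * N := by
    calc X ^ 4 * Z ≤ X ^ 4 * (2 * (a0 * X ^ 5)) := Nat.mul_le_mul_left _ ha4
      _ = 2 * (X ^ 9 * a0) := by ring
      _ ≤ 2 * N := Nat.mul_le_mul_left _ hN2
  -- products with Z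
  have hZZ : Z ^ 2 = Z * Z := sq Z
  have hwZ : w ≤ 4 * Z ^ 2 := by
    have e : (Z + 1) ^ 2 = Z ^ 2 + 2 * Z + 1 := by ring
    have e2 : Z * 1 ≤ Z * Z := Nat.mul_le_mul_left _ hZpos
    rw [← hZZ] at e2
    have e3 : 1 ≤ Z ^ 2 := Nat.one_le_pow _ _ hZpos
    omega
  have hX3 : 64 * X ≤ X ^ 2 := by
    rw [sq]
    exact Nat.mul_le_mul_right _ (by omega)
  have hX32 : 64 * X ^ 2 ≤ X ^ 3 := by
    calc 64 * X ^ 2 ≤ X * X ^ 2 := Nat.mul_le_mul_right _ (by omega)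
      _ = X ^ 3 := by ring
  -- the shape
  have h4D : 8 * dn lam 2 ≤ w := by
    have e1 : 8 * dn lam 2 ≤ X ^ 2 * dn lam 2 := Nat.mul_le_mul_right _ (by omega)
    omega
  have hdn1 : w = ex lam 1 + dn lam 2 := by rw [hwdef, dn_succ]
  have hex2 : ex lam 2 ≤ dn lam 2 := ex_le_dn lam 2
  have hT : dn lam 1 + ex lam 1 ≤ a0 * (Z * X ^ 8) + a := by
    have e1 : 2 * (a0 * (Z * X ^ 8)) = 2 * (a0 * X ^ 5) * (Z * X ^ 3) := by ring
    have e2 : Z * (Z * X ^ 3) ≤ 2 * (a0 * X ^ 5) * (Z * X ^ 3) := Nat.mul_le_mul_right _ ha4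
    have e3 : Z * (Z * X ^ 3) = Z ^ 2 * X ^ 3 := by ring
    have e4 : Z ^ 2 * 16 ≤ Z ^ 2 * X ^ 3 := Nat.mul_le_mul_left _ (by
      have := hXp 1 3 (by norm_num)
      rw [pow_one] at this
      omega)
    omega
  obtain ⟨nu, hnu, hnusum, hnu1, hnu2, hnu3, hnu4, hnu5⟩ :=
    exists_nu (by omega : 2 ≤ n) hlam (a := a) (by omega : a ≤ ex lam 1) hT
  have hnu6 : ∀ j, 2 ≤ j → j ≤ n → dn nu j = dn lam j := by
    intro j hj hjn
    have e1 : ex lam j ≤ ex lam 2 := exanti hlam hj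
    rcases hnu4 j (by omega) with e | e
    · have : min a (ex lam 1 - ex lam j) = a := by omega
      omega
    · omega
  have hex1 : w ≤ 4 * ex nu 1 := by
    have e1 : dn nu 1 = ex nu 1 + dn nu 2 := dn_succ nu 1
    have e2 := hnu6 2 le_rfl (by omega)
    omega
  -- the tail
  have hDRbig : Z * X ^ 400 ≤ dn lam R := by
    have e1 : X ^ 2600 * (Z * X ^ 400) ≤ X ^ 2600 * dn lam R := by
      calc X ^ 2600 * (Z * X ^ 400) = Z * X ^ 3000 := by ring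
        _ ≤ dn lam 2 := hZD
        _ ≤ X ^ 2600 * dn lam R := hDR
    exact Nat.le_of_mul_le_mul_left e1 (hXpos 2600)
  have htail : Z * X ^ 400 ≤ 2 * dn lam (2 + X ^ 11) := by
    have e1 := dn_le hlam R (2 + X ^ 11)
    have e2 : dn lam (R + (2 + X ^ 11)) ≤ dn lam (2 + X ^ 11) := dn_anti lam (by omega)
    have e3 : 2 * ((2 + X ^ 11) * ex lam R) ≤ X ^ 13 * ex lam R := by
      rw [← mul_assoc]
      apply Nat.mul_le_mul_right
      have e5 : X ^ 11 * 4 ≤ X ^ 11 * X ^ 2 := Nat.mul_le_mul_left _ (by omega)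
      have e6 : X ^ 11 * X ^ 2 = X ^ 13 := by ring
      have e7 := hXp 1 11 (by norm_num)
      rw [pow_one] at e7
      omega
    omega
  have hnt : 2 + X ^ 11 ≤ n := by
    by_contra hcon
    rw [dn_ge lam (by omega : n ≤ 2 + X ^ 11)] at htail
    have : 1 ≤ Z * X ^ 400 := Nat.mul_pos hZpos (hXpos 400)
    omega
  have hK5 : 16 * K + 16 ≤ X := hKX
  have hZX' : X ≤ Z := by
    refine le_trans ?_ hZX
    have := hXp 1 9999 (by norm_num)
    rwa [pow_one] at this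
  have hXa' : X ≤ a := by
    have := hXp 1 20000 (by norm_num)
    rw [pow_one] at this
    omega
  have ha0Z : a0 ≤ Z := by
    refine le_trans ?_ ha1
    exact Nat.le_mul_of_pos_right _ (hXpos 5)
  have hZa' : Z < a := by
    refine lt_of_le_of_lt ?_ hZa
    exact Nat.le_mul_of_pos_right _ (hXpos 2)
  have ha0sq : a0 ^ 2 * X ^ 10 ≤ Z ^ 2 := by
    calc a0 ^ 2 * X ^ 10 = (a0 * X ^ 5) ^ 2 := by ring
      _ ≤ Z ^ 2 := Nat.pow_le_pow_left ha1 2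
  have ha0sq' : Z ^ 2 ≤ 4 * (a0 ^ 2 * X ^ 10) := by
    calc Z ^ 2 ≤ (2 * (a0 * X ^ 5)) ^ 2 := Nat.pow_le_pow_left ha4 2
      _ = 4 * (a0 ^ 2 * X ^ 10) := by ring
  refine hA a b n 2 X Z K w a0 (Z * X ^ 8) lam nu hlam hsum (Or.inl hpos) (by norm_num)
    (by omega) hwdef hZ1 hZ2 hK1 hKX hZX' hwX hKa hab (zx2 hX hZpos hZa6) (by omega) (by omega)
    ?_ ?_ hnu1 hnu2 ?_ ?_
  · -- a + a0 (a0 + 2) ≤ w
    have e1 : a0 * (a0 + 2) = a0 ^ 2 + 2 * a0 := by ring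
    have e2 : a0 * 1 ≤ a0 * a0 := Nat.mul_le_mul_left _ (by omega)
    have e3 : a0 ^ 2 = a0 * a0 := sq a0
    have e4 : a0 ^ 2 * 6 ≤ a0 ^ 2 * X ^ 10 := Nat.mul_le_mul_left _ (by
      have := hXp 1 10 (by norm_num)
      rw [pow_one] at this
      omega)
    omega
  · -- 3 (b0 + 1) ≤ a
    have e3 : 8 * (Z * X ^ 8) ≤ Z * X ^ 6500 := by
      calc 8 * (Z * X ^ 8) ≤ X * (Z * X ^ 8) := Nat.mul_le_mul_right _ (by omega)
        _ = Z * X ^ 9 := by ring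
        _ ≤ Z * X ^ 6500 := Nat.mul_le_mul_left _ (hXp _ _ (by norm_num))
    have e4 : 1 ≤ Z * X ^ 8 := Nat.mul_pos hZpos (hXpos 8)
    omega
  · rw [← hnu3, hwdef]
  · intro hnJ
    have hJa : Z * X ^ 2 + 1 ≤ a := hZa
    have hlogJ : Real.log ((Z * X ^ 2 + 1 : ℕ) : ℝ) ≤ Real.log a := by
      apply Real.log_le_log
      · positivity
      · exact_mod_cast hJa
    have hlogX : Real.log a ≤ X := by
      have : 0 ≤ Real.log a := Real.log_nonneg (by exact_mod_cast ha)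
      nlinarith
    have hXr : (1 : ℝ) ≤ X := by exact_mod_cast hX1
    have hlb := hL a0 (Z * X ^ 8) n (Z * X ^ 2 + 1) (1000 * X ^ 9) P (X ^ 11) N nu hnu hnusum
      (by omega) (by omega) hN ?_ hP1 hP2 ?_ ?_ ?_ ?_ ?_ ?_ ?_ ?_ ?_ ?_
    · refine to_nat (w := w) (m := (2 + 1) * (Z * X ^ 2)) hlb (pow_bound ha hwa ?_)
      -- 1 + 6 Z X^2 log a ≤ N
      have e1 : (1 : ℝ) ≤ (Z * X ^ 2 : ℕ) := by
        exact_mod_cast Nat.mul_pos hZpos (hXpos 2)
      have e2 : ((X ^ 2 * (Z * X ^ 2) : ℕ) : ℝ) ≤ ((2 * N : ℕ) : ℝ) := by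
        have : X ^ 2 * (Z * X ^ 2) = X ^ 4 * Z := by ring
        rw [this]
        exact_mod_cast hN4
      push_cast at e1 e2 ⊢
      have e3 : (14 : ℝ) * X ≤ (X : ℝ) ^ 2 := by
        have : 14 * X ≤ X ^ 2 := by omega
        exact_mod_cast this
      have e5 : (Z : ℝ) * X ^ 2 * Real.log a ≤ (Z : ℝ) * X ^ 2 * X :=
        mul_le_mul_of_nonneg_left hlogX (by positivity)
      have e6 : (14 : ℝ) * X * (Z * X ^ 2) ≤ X ^ 2 * (Z * X ^ 2) :=
        mul_le_mul_of_nonneg_right e3 (by positivity)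
      nlinarith
    · -- 8 J ≤ N
      have e1 : 32 * (Z * X ^ 2) ≤ X ^ 4 * Z := by
        calc 32 * (Z * X ^ 2) ≤ X ^ 2 * (Z * X ^ 2) := Nat.mul_le_mul_right _ (by omega)
          _ = X ^ 4 * Z := by ring
      have e2 : 1 ≤ Z * X ^ 2 := Nat.mul_pos hZpos (hXpos 2)
      omega
    · have := hXpos 9
      have e1 := hXp 1 9 (by norm_num)
      rw [pow_one] at e1
      omega
    · -- 30 K + 40 ≤ a0
      have e1 : 30000 * X ^ 9 + 40 ≤ X ^ 100 := by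
        have e2 : X ^ 9 * 40000 ≤ X ^ 9 * X := Nat.mul_le_mul_left _ (by omega)
        have e3 : X ^ 9 * X = X ^ 10 := by ring
        have e4 := hXp 10 100 (by norm_num)
        have e5 := hXpos 9
        omega
      omega
    · -- 4 a0 ≤ N
      refine le_trans ?_ hN2
      apply Nat.mul_le_mul_right
      have := hXp 1 9 (by norm_num)
      rw [pow_one] at this
      omega
    · -- b0 ≤ a0 ^ 2
      have e1 : (2 * X ^ 5) * (Z * X ^ 8) ≤ (2 * X ^ 5) * a0 ^ 2 := by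
        calc (2 * X ^ 5) * (Z * X ^ 8) = 2 * X ^ 13 * Z := by ring
          _ ≤ a0 * Z := by
            apply Nat.mul_le_mul_right
            refine le_trans ?_ ha3
            calc 2 * X ^ 13 ≤ X * X ^ 13 := Nat.mul_le_mul_right _ (by omega)
              _ = X ^ 14 := by ring
              _ ≤ X ^ 100 := hXp _ _ (by norm_num)
          _ ≤ a0 * (2 * (a0 * X ^ 5)) := Nat.mul_le_mul_left _ ha4
          _ = (2 * X ^ 5) * a0 ^ 2 := by ring
      exact Nat.le_of_mul_le_mul_left e1 (Nat.mul_pos (by norm_num) (hXpos 5))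
    · -- 3 (a0 N) ≤ ex nu 1
      have e1 : X * (a0 * N) ≤ 2 * Z ^ 2 := by
        calc X * (a0 * N) ≤ X * (a0 * (2 * (X ^ 4 * Z))) :=
              Nat.mul_le_mul_left _ (Nat.mul_le_mul_left _ hN3)
          _ = 2 * (a0 * X ^ 5 * Z) := by ring
          _ ≤ 2 * (Z * Z) := Nat.mul_le_mul_left _ (Nat.mul_le_mul_right _ ha1)
          _ = 2 * Z ^ 2 := by rw [hZZ]
      have e2 : X * (3 * (a0 * N)) ≤ X * ex nu 1 := by
        calc X * (3 * (a0 * N)) = 3 * (X * (a0 * N)) := by ring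
          _ ≤ 3 * (2 * Z ^ 2) := Nat.mul_le_mul_left _ e1
          _ ≤ 24 * ex nu 1 := by omega
          _ ≤ X * ex nu 1 := Nat.mul_le_mul_right _ (by omega)
      exact Nat.le_of_mul_le_mul_left e2 hX1
    · -- 2 b0 + 2 N + a0 N ≤ ex nu 1
      have e1 : X * (a0 * N) ≤ 2 * Z ^ 2 := by
        calc X * (a0 * N) ≤ X * (a0 * (2 * (X ^ 4 * Z))) :=
              Nat.mul_le_mul_left _ (Nat.mul_le_mul_left _ hN3)
          _ = 2 * (a0 * X ^ 5 * Z) := by ring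
          _ ≤ 2 * (Z * Z) := Nat.mul_le_mul_left _ (Nat.mul_le_mul_right _ ha1)
          _ = 2 * Z ^ 2 := by rw [hZZ]
      have e2 : X * (Z * X ^ 8) ≤ Z ^ 2 := by
        calc X * (Z * X ^ 8) = Z * X ^ 9 := by ring
          _ ≤ Z * Z := Nat.mul_le_mul_left _ ((hXp _ _ (by norm_num)).trans hZX)
          _ = Z ^ 2 := by rw [hZZ]
      have e3 : X * N ≤ 2 * Z ^ 2 := by
        calc X * N ≤ X * (2 * (X ^ 4 * Z)) := Nat.mul_le_mul_left _ hN3
          _ = 2 * (Z * X ^ 5) := by ring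
          _ ≤ 2 * (Z * Z) := Nat.mul_le_mul_left _
            (Nat.mul_le_mul_left _ ((hXp _ _ (by norm_num)).trans hZX))
          _ = 2 * Z ^ 2 := by rw [hZZ]
      have e4 : X * (2 * (Z * X ^ 8) + 2 * N + a0 * N) ≤ X * ex nu 1 := by
        calc X * (2 * (Z * X ^ 8) + 2 * N + a0 * N) =
              2 * (X * (Z * X ^ 8)) + 2 * (X * N) + X * (a0 * N) := by ring
          _ ≤ 32 * ex nu 1 := by omega
          _ ≤ X * ex nu 1 := Nat.mul_le_mul_right _ (by omega)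
      exact Nat.le_of_mul_le_mul_left e4 hX1
    · -- 8 dn nu 2 ≤ a0 N
      have e0 := hnu5 2 (by norm_num)
      have e1 : X ^ 2 * (8 * dn nu 2) ≤ X ^ 2 * (a0 * N) := by
        calc X ^ 2 * (8 * dn nu 2) = 8 * (X ^ 2 * dn nu 2) := by ring
          _ ≤ 8 * (X ^ 2 * dn lam 2) := Nat.mul_le_mul_left _ (Nat.mul_le_mul_left _ e0)
          _ ≤ 8 * (4 * Z ^ 2) := Nat.mul_le_mul_left _ (hs.trans hwZ)
          _ ≤ 8 * (4 * (4 * (a0 ^ 2 * X ^ 10))) :=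
            Nat.mul_le_mul_left _ (Nat.mul_le_mul_left _ ha0sq')
          _ = 128 * (a0 ^ 2 * X ^ 10) := by ring
          _ ≤ X * (a0 ^ 2 * X ^ 10) := Nat.mul_le_mul_right _ (by omega)
          _ = X ^ 2 * (a0 * (X ^ 9 * a0)) := by ring
          _ ≤ X ^ 2 * (a0 * N) := Nat.mul_le_mul_left _ (Nat.mul_le_mul_left _ hN2)
      exact Nat.le_of_mul_le_mul_left e1 (hXpos 2)
    · -- log a0 ≤ K
      have e1 : Real.log a0 ≤ Real.log a := by
        apply Real.log_le_log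
        · exact_mod_cast (by omega : 0 < a0)
        · exact_mod_cast (by omega : a0 ≤ a)
      have e2 : (X : ℝ) ≤ ((1000 * X ^ 9 : ℕ) : ℝ) := by
        have := hXp 1 9 (by norm_num)
        rw [pow_one] at this
        exact_mod_cast (by omega : X ≤ 1000 * X ^ 9)
      linarith
    · -- 16 K log J ≤ L
      have e2 : (16000 : ℝ) * (X : ℝ) ^ 9 * X ≤ (X : ℝ) ^ 11 := by
        have : 16000 * X ^ 9 * X ≤ X ^ 11 := by
          calc 16000 * X ^ 9 * X = 16000 * X ^ 10 := by ring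
            _ ≤ X * X ^ 10 := Nat.mul_le_mul_right _ (by omega)
            _ = X ^ 11 := by ring
        exact_mod_cast this
      have e3 : Real.log ((Z * X ^ 2 + 1 : ℕ) : ℝ) ≤ X := hlogJ.trans hlogX
      calc 16 * ((1000 * X ^ 9 : ℕ) : ℝ) * Real.log ((Z * X ^ 2 + 1 : ℕ) : ℝ)
          ≤ 16 * ((1000 * X ^ 9 : ℕ) : ℝ) * X := mul_le_mul_of_nonneg_left e3 (by positivity)
        _ = (16000 : ℝ) * (X : ℝ) ^ 9 * X := by
          push_cast
          ring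
        _ ≤ (X : ℝ) ^ 11 := e2
        _ = ((X ^ 11 : ℕ) : ℝ) := by push_cast; rfl
    · -- 100 N K log J ≤ dn nu (2 + L)
      rw [hnu6 (2 + X ^ 11) (by omega) hnt]
      have e3 : Real.log ((Z * X ^ 2 + 1 : ℕ) : ℝ) ≤ X := hlogJ.trans hlogX
      have e4 : 100 * N * (1000 * X ^ 9) * X ≤ dn lam (2 + X ^ 11) := by
        have e5 : 2 * (100 * N * (1000 * X ^ 9) * X) ≤ Z * X ^ 400 := by
          calc 2 * (100 * N * (1000 * X ^ 9) * X) = 200000 * X ^ 10 * N := by ring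
            _ ≤ 200000 * X ^ 10 * (2 * (X ^ 4 * Z)) := Nat.mul_le_mul_left _ hN3
            _ = 400000 * X ^ 14 * Z := by ring
            _ ≤ X * X ^ 14 * Z := Nat.mul_le_mul_right _ (Nat.mul_le_mul_right _ (by omega))
            _ = Z * X ^ 15 := by ring
            _ ≤ Z * X ^ 400 := Nat.mul_le_mul_left _ (hXp _ _ (by norm_num))
        omega
      calc 100 * (N : ℝ) * ((1000 * X ^ 9 : ℕ) : ℝ) * Real.log ((Z * X ^ 2 + 1 : ℕ) : ℝ)
          ≤ 100 * (N : ℝ) * ((1000 * X ^ 9 : ℕ) : ℝ) * X :=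
            mul_le_mul_of_nonneg_left e3 (by positivity)
        _ = ((100 * N * (1000 * X ^ 9) * X : ℕ) : ℝ) := by push_cast; ring
        _ ≤ dn lam (2 + X ^ 11) := by exact_mod_cast e4

end Vale.Agent.P181.DG.E924
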